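import Vale.Agent.Lib.P172.Line

set_option linter.unusedSectionVars false

namespace Vale.Agent.Lib.P172

section cocycle

variable {G : Type*} [Group G] (N : Subgroup G) [N.Normal] [IsCyclic N] [Infinite N]

/-- The isomorphism of the infinite cyclic group `N` with the integers. -/
noncomputable def nu (n : N) : ℤ :=
  Multiplicative.toAdd ((intCyclicMulEquiv (G := N)).symm n)

theorem nu_mul (a b : N) : nu N (a * b) = nu N a + nu N b := by
  simp [nu]

theorem nu_one : nu N 1 = 0 := by
  simp [nu]

theorem nu_inv (a : N) : nu N a⁻¹ = - nu N a := by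
  simp [nu]

theorem nu_zpow (a : N) (k : ℤ) : nu N (a ^ k) = k * nu N a := by
  simp [nu]

theorem nu_injective : Function.Injective (nu N) := by
  intro a b h
  simp only [nu] at h
  exact (intCyclicMulEquiv (G := N)).symm.injective (Multiplicative.toAdd.injective h)

/-- The generator of `N` with `nu = 1`. -/
noncomputable def gen : N := (intCyclicMulEquiv (G := N)) (Multiplicative.ofAdd 1)

theorem nu_gen : nu N (gen N) = 1 := by
  simp [nu, gen]

theorem eq_gen_zpow (n : N) : n = gen N ^ nu N n := by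
  apply nu_injective N
  rw [nu_zpow, nu_gen, mul_one]

/-- The sign by which `g` acts on `N` by conjugation. -/
noncomputable def eps (g : G) : ℤ := nu N (MulAut.conjNormal g (gen N))

theorem nu_conj (g : G) (n : N) : nu N (MulAut.conjNormal g n) = eps N g * nu N n := by
  conv_lhs => rw [eq_gen_zpow N n]
  rw [map_zpow, nu_zpow, eps, mul_comm]

theorem eps_mul (g h : G) : eps N (g * h) = eps N g * eps N h := by
  unfold eps
  rw [map_mul, MulAut.mul_apply, nu_conj]
  rfl

theorem eps_one : eps N (1 : G) = 1 := by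
  unfold eps
  rw [map_one, MulAut.one_apply, nu_gen]

theorem eps_mul_inv (g : G) : eps N g * eps N g⁻¹ = 1 := by
  rw [← eps_mul, mul_inv_cancel, eps_one]

theorem eps_inv_mul (g : G) : eps N g⁻¹ * eps N g = 1 := by
  rw [← eps_mul, inv_mul_cancel, eps_one]

theorem eps_cases (g : G) : eps N g = 1 ∨ eps N g = -1 :=
  Int.eq_one_or_neg_one_of_mul_eq_one (eps_mul_inv N g)

theorem eps_mul_self (g : G) : eps N g * eps N g = 1 := by
  rcases eps_cases N g with h | h <;> rw [h] <;> norm_num

theorem eps_of_mem (n : N) : eps N (n : G) = 1 := by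
  unfold eps
  have h : MulAut.conjNormal (n : G) (gen N) = n * gen N * n⁻¹ := by
    ext
    simp [MulAut.conjNormal_apply]
  rw [h, nu_mul, nu_mul, nu_inv, nu_gen]
  ring

/-- Extension of `nu` by zero to the whole group. -/
noncomputable def nuG (x : G) : ℤ := by
  classical
  exact if h : x ∈ N then nu N ⟨x, h⟩ else 0

theorem nuG_of_mem (n : N) : nuG N (n : G) = nu N n := by
  simp [nuG]

theorem nuG_mul {x y : G} (hx : x ∈ N) (hy : y ∈ N) : nuG N (x * y) = nuG N x + nuG N y := by
  have h := nu_mul N ⟨x, hx⟩ ⟨y, hy⟩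
  simp only [nuG, hx, hy, N.mul_mem hx hy, dif_pos]
  exact h

theorem nuG_one : nuG N (1 : G) = 0 := by
  have := nuG_of_mem N 1
  simpa [nu_one] using this

theorem nuG_conj (g : G) {x : G} (hx : x ∈ N) : nuG N (g * x * g⁻¹) = eps N g * nuG N x := by
  have h := nu_conj N g ⟨x, hx⟩
  have h2 : ((MulAut.conjNormal g (⟨x, hx⟩ : N) : N) : G) = g * x * g⁻¹ := by
    simp [MulAut.conjNormal_apply]
  rw [← h2, nuG_of_mem, h]
  congr 1
  exact (nuG_of_mem N ⟨x, hx⟩).symm

/-- A chosen representative of the coset of `x`. -/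
noncomputable def rep (x : G) : G := Quotient.out (x : G ⧸ N)

theorem rep_inv_mul_mem (x : G) : (rep N x)⁻¹ * x ∈ N := by
  rw [← QuotientGroup.eq, rep, QuotientGroup.out_eq']

theorem rep_mul_of_mem (x : G) {n : G} (hn : n ∈ N) : rep N (x * n) = rep N x := by
  unfold rep
  rw [QuotientGroup.mk_mul_of_mem x hn]

theorem eps_mul_of_mem (x : G) {n : G} (hn : n ∈ N) : eps N (x * n) = eps N x := by
  rw [eps_mul, eps_of_mem N ⟨n, hn⟩, mul_one]

theorem eps_rep (x : G) : eps N (rep N x) = eps N x := by
  have h : x = rep N x * ((rep N x)⁻¹ * x) := by group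
  conv_rhs => rw [h]
  rw [eps_mul_of_mem N _ (rep_inv_mul_mem N x)]

/-- The coordinate of `x` along `N`. -/
noncomputable def coord (x : G) : ℤ := eps N x * nuG N ((rep N x)⁻¹ * x)

theorem coord_mul_of_mem (x : G) {n : G} (hn : n ∈ N) :
    coord N (x * n) = coord N x + eps N x * nuG N n := by
  unfold coord
  rw [rep_mul_of_mem N x hn, eps_mul_of_mem N x hn, ← mul_assoc,
    nuG_mul N (rep_inv_mul_mem N x) hn]
  ring

theorem coord_rep (x : G) : coord N (rep N x) = 0 := by
  have h1 : rep N (rep N x) = rep N x := by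
    unfold rep
    rw [QuotientGroup.out_eq']
  unfold coord
  rw [h1, inv_mul_cancel, nuG_one, mul_zero]

/-- The defect of `coord` under left multiplication by `g`. -/
noncomputable def defect (g x : G) : ℤ := coord N (g * x) - eps N g * coord N x

theorem defect_mul_of_mem (g x : G) {n : G} (hn : n ∈ N) :
    defect N g (x * n) = defect N g x := by
  unfold defect
  rw [← mul_assoc, coord_mul_of_mem N (g * x) hn, coord_mul_of_mem N x hn, eps_mul]
  ring

theorem defect_rep (g x : G) : defect N g (rep N x) = defect N g x := by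
  have h : x = rep N x * ((rep N x)⁻¹ * x) := by group
  conv_rhs => rw [h]
  rw [defect_mul_of_mem N g _ (rep_inv_mul_mem N x)]

theorem defect_mul (g h x : G) :
    defect N (g * h) x = defect N g (h * x) + eps N g * defect N h x := by
  unfold defect
  rw [eps_mul, mul_assoc]
  ring

end cocycle

section action

variable {G : Type*} [Group G] (N : Subgroup G) [N.Normal] [IsCyclic N] [Infinite N]
  [N.FiniteIndex]

/-- The crossed homomorphism obtained by summing the defect over the cosets of `N`. -/
noncomputable def coc (g : G) : ℤ :=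
  @Finset.sum (G ⧸ N) ℤ _ (@Finset.univ (G ⧸ N) (Fintype.ofFinite _))
    (fun q => defect N g (Quotient.out q))

theorem coc_mul (g h : G) : coc N (g * h) = coc N g + eps N g * coc N h := by
  let _ : Fintype (G ⧸ N) := Fintype.ofFinite _
  unfold coc
  simp only [defect_mul]
  rw [Finset.sum_add_distrib, ← Finset.mul_sum]
  congr 1
  have h1 : ∀ q : G ⧸ N, defect N g (h * Quotient.out q)
      = defect N g (Quotient.out ((h : G ⧸ N) * q)) := by
    intro q
    rw [← defect_rep N g (h * Quotient.out q)]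
    unfold rep
    rw [QuotientGroup.mk_mul, QuotientGroup.out_eq']
  simp only [h1]
  exact Equiv.sum_comp (Equiv.mulLeft (h : G ⧸ N)) (fun q => defect N g (Quotient.out q))

theorem coc_one : coc N (1 : G) = 0 := by
  have h := coc_mul N (1 : G) 1
  rw [mul_one, eps_one, one_mul] at h
  linarith

theorem coord_out (q : G ⧸ N) : coord N (Quotient.out q) = 0 := by
  have h := coord_rep N (Quotient.out q)
  unfold rep at h
  rwa [QuotientGroup.out_eq'] at h

theorem coc_of_mem (n : N) : coc N (n : G) = (Nat.card (G ⧸ N) : ℤ) * nu N n := by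
  let _ : Fintype (G ⧸ N) := Fintype.ofFinite _
  unfold coc
  have h1 : ∀ q : G ⧸ N, defect N (n : G) (Quotient.out q) = nu N n := by
    intro q
    set x : G := Quotient.out q with hx
    have hmem : x⁻¹ * (n : G) * x⁻¹⁻¹ ∈ N :=
      (inferInstance : N.Normal).conj_mem (n : G) n.2 x⁻¹
    have h2 : (n : G) * x = x * (x⁻¹ * (n : G) * x⁻¹⁻¹) := by group
    unfold defect
    rw [h2, coord_mul_of_mem N x hmem, coord_out, nuG_conj N x⁻¹ n.2, nuG_of_mem,
      ← mul_assoc, eps_mul_inv]
    ring
  simp only [h1]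
  rw [Finset.sum_const, Finset.card_univ, Nat.card_eq_fintype_card]
  simp

theorem card_quot_pos : 0 < (Nat.card (G ⧸ N) : ℤ) := by
  have : Nat.card (G ⧸ N) ≠ 0 := Nat.card_pos.ne'
  positivity

theorem coc_mul_of_mem (g : G) (n : N) :
    coc N (g * (n : G)) = coc N g + eps N g * ((Nat.card (G ⧸ N) : ℤ) * nu N n) := by
  rw [coc_mul, coc_of_mem]

theorem pair_injective : Function.Injective (fun g : G => ((g : G ⧸ N), coc N g)) := by
  intro g g' h
  simp only [Prod.mk.injEq] at h
  obtain ⟨h1, h2⟩ := h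
  have hmem : g⁻¹ * g' ∈ N := QuotientGroup.eq.1 h1
  have h3 : g' = g * ((⟨g⁻¹ * g', hmem⟩ : N) : G) := by
    simp
  rw [h3, coc_mul_of_mem] at h2
  have h4 : eps N g * ((Nat.card (G ⧸ N) : ℤ) * nu N ⟨g⁻¹ * g', hmem⟩) = 0 := by linarith
  have h5 : nu N ⟨g⁻¹ * g', hmem⟩ = 0 := by
    rcases mul_eq_zero.1 h4 with h | h
    · rcases eps_cases N g with h' | h' <;> rw [h'] at h <;> norm_num at h
    · rcases mul_eq_zero.1 h with h' | h'
      · exact absurd h' (card_quot_pos N).ne'
      · exact h'
  have h6 : (⟨g⁻¹ * g', hmem⟩ : N) = 1 := nu_injective N (by rw [h5, nu_one])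
  have h7 : g⁻¹ * g' = 1 := congrArg Subtype.val h6
  exact (inv_mul_eq_one.1 h7)

/-- The action of `G` on the real line by the isometries `x ↦ eps g * x + coc g`. -/
@[reducible] noncomputable def lineAction : MulAction G ℝ where
  smul g x := (eps N g : ℝ) * x + (coc N g : ℝ)
  one_smul x := by
    change ((eps N (1 : G) : ℤ) : ℝ) * x + ((coc N (1 : G) : ℤ) : ℝ) = x
    rw [eps_one, coc_one]
    simp
  mul_smul g h x := by
    change ((eps N (g * h) : ℤ) : ℝ) * x + ((coc N (g * h) : ℤ) : ℝ)
      = (eps N g : ℝ) * ((eps N h : ℝ) * x + (coc N h : ℝ)) + (coc N g : ℝ)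
    rw [eps_mul, coc_mul]
    push_cast
    ring

theorem lineAction_smul (g : G) (x : ℝ) :
    (lineAction N).smul g x = (eps N g : ℝ) * x + (coc N g : ℝ) := rfl

theorem abs_eps (g : G) : |(eps N g : ℝ)| = 1 := by
  rcases eps_cases N g with h | h <;> rw [h] <;> simp

end action

end Vale.Agent.Lib.P172
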