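import Mathlib

namespace Vale.Agent.Lib.P172

/-- A metric space is geodesic if any two points are joined by a geodesic segment. -/
def IsGeodesicSpace (X : Type*) [MetricSpace X] : Prop :=
  ∀ x y : X, ∃ γ : ℝ → X, γ 0 = x ∧ γ (dist x y) = y ∧
    ∀ s t : ℝ, 0 ≤ s → s ≤ dist x y → 0 ≤ t → t ≤ dist x y → dist (γ s) (γ t) = |s - t|

/-- `IsCAT M X`: the geodesic space `X` satisfies the comparison condition of Alexandrov with
respect to the model space `M`: for every geodesic triangle with vertices `p q r`, every point
`x` on a geodesic from `p` to `q` and every point `y` on a geodesic from `p` to `r`, and every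
comparison triangle `p' q' r'` in `M` with comparison points `x'`, `y'`, one has
`dist x y ≤ dist x' y'`. -/
def IsCAT (M : Type*) [MetricSpace M] (X : Type*) [MetricSpace X] : Prop :=
  IsGeodesicSpace X ∧
    ∀ (p q r x y : X) (p' q' r' x' y' : M),
      dist p x + dist x q = dist p q → dist p y + dist y r = dist p r →
      dist p' q' = dist p q → dist q' r' = dist q r → dist p' r' = dist p r →
      dist p' x' = dist p x → dist x' q' = dist x q →
      dist p' y' = dist p y → dist y' r' = dist y r →
      dist x y ≤ dist x' y'

/-- `ActsGeometricallyOnCAT M G`: the group `G` acts by isometries, properly discontinuously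
and cocompactly, on some nonempty proper metric space satisfying the comparison condition with
respect to the model space `M`. -/
def ActsGeometricallyOnCAT (M : Type) [MetricSpace M] (G : Type*) [Group G] : Prop :=
  ∃ (X : Type) (_ : MetricSpace X) (_ : MulAction G X),
    Nonempty X ∧ ProperSpace X ∧ IsCAT M X ∧
    (∀ (g : G) (x y : X), dist (g • x) (g • y) = dist x y) ∧
    (∀ K : Set X, IsCompact K → {g : G | ∃ x ∈ K, g • x ∈ K}.Finite) ∧
    ∃ K : Set X, IsCompact K ∧ ∀ x : X, ∃ g : G, g • x ∈ K

end Vale.Agent.Lib.P172
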