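import Vale.Agent.Lib.P172.Defs

namespace Vale.Agent.Lib.P172

theorem isGeodesicSpace_real : IsGeodesicSpace ℝ := by
  intro x y
  rcases le_total x y with h | h
  · refine ⟨fun s => x + s, by simp, ?_, ?_⟩
    · simp only [Real.dist_eq, abs_of_nonpos (sub_nonpos.2 h)]
      ring
    · intro s t _ _ _ _
      simp [Real.dist_eq]
  · refine ⟨fun s => x - s, by simp, ?_, ?_⟩
    · simp only [Real.dist_eq, abs_of_nonneg (sub_nonneg.2 h)]
      ring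
    · intro s t _ _ _ _
      simp only [Real.dist_eq]
      rw [← abs_neg]
      congr 1
      ring

theorem between_real {p x q : ℝ} (h : dist p x + dist x q = dist p q) :
    (p ≤ x ∧ x ≤ q) ∨ (q ≤ x ∧ x ≤ p) := by
  simp only [Real.dist_eq] at h
  rcases abs_cases (p - x) with ⟨h1, h1'⟩ | ⟨h1, h1'⟩ <;>
  rcases abs_cases (x - q) with ⟨h2, h2'⟩ | ⟨h2, h2'⟩ <;>
  rcases abs_cases (p - q) with ⟨h3, h3'⟩ | ⟨h3, h3'⟩ <;>
  first
  | (left; constructor <;> linarith)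
  | (right; constructor <;> linarith)

theorem isCAT_real (M : Type*) [MetricSpace M] : IsCAT M ℝ := by
  refine ⟨isGeodesicSpace_real, ?_⟩
  intro p q r x y p' q' r' x' y' hx hy hpq hqr hpr hpx hxq hpy hyr
  have t1 := abs_dist_sub_le x' y' p'
  have t2 := dist_triangle4 q' x' y' r'
  rw [dist_comm x' p', dist_comm y' p', hpx, hpy] at t1
  rw [dist_comm q' x', hxq, hyr, hqr] at t2
  have ht1 := abs_le.1 t1
  rcases between_real hx with ⟨a1, a2⟩ | ⟨a1, a2⟩ <;>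
  rcases between_real hy with ⟨b1, b2⟩ | ⟨b1, b2⟩ <;>
  simp only [Real.dist_eq] at hx hy ht1 t2 ⊢ <;>
  rcases abs_cases (p - x) with ⟨h1, h1'⟩ | ⟨h1, h1'⟩ <;>
  rcases abs_cases (x - q) with ⟨h2, h2'⟩ | ⟨h2, h2'⟩ <;>
  rcases abs_cases (p - y) with ⟨h3, h3'⟩ | ⟨h3, h3'⟩ <;>
  rcases abs_cases (y - r) with ⟨h4, h4'⟩ | ⟨h4, h4'⟩ <;>
  rcases abs_cases (q - r) with ⟨h5, h5'⟩ | ⟨h5, h5'⟩ <;>
  rcases abs_cases (x - y) with ⟨h6, h6'⟩ | ⟨h6, h6'⟩ <;>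
  rw [h1] at ht1 <;> rw [h3] at ht1 <;> rw [h2, h4, h5] at t2 <;> rw [h6] <;>
  linarith [ht1.1, ht1.2]

theorem isCAT_punit (M : Type*) [MetricSpace M] : IsCAT M PUnit.{1} := by
  refine ⟨?_, ?_⟩
  · intro x y
    refine ⟨fun _ => PUnit.unit, rfl, rfl, ?_⟩
    intro s t hs1 hs2 ht1 ht2
    have h0 : dist x y = 0 := by simp
    rw [h0] at hs2 ht2
    have hs : s = 0 := le_antisymm hs2 hs1
    have ht : t = 0 := le_antisymm ht2 ht1
    simp [hs, ht]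
  · intro p q r x y p' q' r' x' y' _ _ _ _ _ _ _ _ _
    simp

end Vale.Agent.Lib.P172
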