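import Vale.Agent.Lib.P172.Cocycle

namespace Vale.Agent.Lib.P172

theorem acts_of_finite (M : Type) [MetricSpace M] (G : Type*) [Group G] [Finite G] :
    ActsGeometricallyOnCAT M G := by
  refine ⟨PUnit, inferInstance,
    { smul := fun _ x => x, one_smul := fun _ => rfl, mul_smul := fun _ _ _ => rfl },
    ⟨PUnit.unit⟩, inferInstance, isCAT_punit M, ?_, ?_, ?_⟩
  · intro g x y
    rfl
  · intro K _
    exact Set.toFinite _
  · exact ⟨Set.univ, isCompact_univ, fun x => ⟨1, Set.mem_univ _⟩⟩

theorem acts_of_infinite_cyclic_normal (M : Type) [MetricSpace M] (G : Type*) [Group G]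
    (N : Subgroup G) [N.Normal] [IsCyclic N] [Infinite N] [N.FiniteIndex] :
    ActsGeometricallyOnCAT M G := by
  refine ⟨ℝ, inferInstance, lineAction N, ⟨0⟩, inferInstance, isCAT_real M, ?_, ?_, ?_⟩
  · intro g x y
    change dist ((eps N g : ℝ) * x + (coc N g : ℝ)) ((eps N g : ℝ) * y + (coc N g : ℝ))
      = dist x y
    rw [Real.dist_eq, Real.dist_eq]
    have : (eps N g : ℝ) * x + (coc N g : ℝ) - ((eps N g : ℝ) * y + (coc N g : ℝ))
        = (eps N g : ℝ) * (x - y) := by ring
    rw [this, abs_mul, abs_eps, one_mul]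
  · intro K hK
    obtain ⟨R, hR⟩ := (isBounded_iff_forall_norm_le.1 hK.isBounded)
    have hsub : {g : G | ∃ x ∈ K, (lineAction N).smul g x ∈ K} ⊆
        (fun g : G => ((g : G ⧸ N), coc N g)) ⁻¹'
          (Set.univ ×ˢ Set.Icc (-⌈2 * R⌉) ⌈2 * R⌉) := by
      rintro g ⟨x, hx, hgx⟩
      have h1 := hR x hx
      have h2 := hR _ hgx
      rw [lineAction_smul] at h2
      rw [Real.norm_eq_abs] at h1 h2
      have h3 : |(coc N g : ℝ)| ≤ 2 * R := by
        have h4 : (coc N g : ℝ) = ((eps N g : ℝ) * x + (coc N g : ℝ)) - (eps N g : ℝ) * x := by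
          ring
        rw [h4]
        have h5 : |(eps N g : ℝ) * x| = |x| := by rw [abs_mul, abs_eps, one_mul]
        calc |((eps N g : ℝ) * x + (coc N g : ℝ)) - (eps N g : ℝ) * x|
            ≤ |(eps N g : ℝ) * x + (coc N g : ℝ)| + |(eps N g : ℝ) * x| := abs_sub _ _
          _ ≤ R + R := by rw [h5]; exact add_le_add h2 h1
          _ = 2 * R := by ring
      have h6 := abs_le.1 h3
      simp only [Set.mem_preimage, Set.mem_prod, Set.mem_univ, true_and, Set.mem_Icc]
      constructor
      · have : (-(⌈2 * R⌉ : ℤ) : ℝ) ≤ (coc N g : ℝ) := by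
          have := Int.le_ceil (2 * R)
          linarith
        exact_mod_cast this
      · have : (coc N g : ℝ) ≤ (⌈2 * R⌉ : ℤ) := by
          have := Int.le_ceil (2 * R)
          linarith
        exact_mod_cast this
    have hfin : (Set.univ ×ˢ Set.Icc (-⌈2 * R⌉) ⌈2 * R⌉ : Set ((G ⧸ N) × ℤ)).Finite :=
      Set.Finite.prod Set.finite_univ (Set.finite_Icc _ _)
    exact (hfin.preimage (pair_injective N).injOn).subset hsub
  · refine ⟨Set.Icc 0 (Nat.card (G ⧸ N) : ℝ), isCompact_Icc, ?_⟩
    intro x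
    have hk : (0 : ℝ) < (Nat.card (G ⧸ N) : ℝ) := by
      have := card_quot_pos N
      exact_mod_cast this
    set k : ℝ := (Nat.card (G ⧸ N) : ℝ) with hkdef
    let m : ℤ := -⌊x / k⌋
    refine ⟨((gen N ^ m : N) : G), ?_⟩
    change (eps N ((gen N ^ m : N) : G) : ℝ) * x + (coc N ((gen N ^ m : N) : G) : ℝ) ∈ _
    rw [eps_of_mem, coc_of_mem, nu_zpow, nu_gen]
    have h1 := Int.floor_le (x / k)
    have h2 := Int.lt_floor_add_one (x / k)
    rw [le_div_iff₀ hk] at h1
    rw [div_lt_iff₀ hk] at h2
    simp only [Set.mem_Icc]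
    push_cast
    simp only [m]
    push_cast
    constructor <;> nlinarith

theorem acts_of_virtually_cyclic (M : Type) [MetricSpace M] (G : Type*) [Group G]
    (h : ∃ H : Subgroup G, H.FiniteIndex ∧ IsCyclic H) : ActsGeometricallyOnCAT M G := by
  obtain ⟨H, hfin, hcyc⟩ := h
  by_cases hG : Finite G
  · exact acts_of_finite M G
  · have hinf : Infinite G := not_finite_iff_infinite.1 hG
    let N : Subgroup G := H.normalCore
    have hN1 : N.Normal := Subgroup.normalCore_normal H
    have hN2 : N.FiniteIndex := Subgroup.finiteIndex_normalCore H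
    have hle : N ≤ H := Subgroup.normalCore_le H
    have hN3 : IsCyclic N := by
      have : IsCyclic (N.subgroupOf H) := Subgroup.isCyclic _
      exact isCyclic_of_surjective (Subgroup.subgroupOfEquivOfLe hle)
        (Subgroup.subgroupOfEquivOfLe hle).surjective
    have hN4 : Infinite N := by
      by_contra hfinN
      have hfinN' : Finite N := not_infinite_iff_finite.1 hfinN
      have h1 := Subgroup.card_mul_index N
      have h2 : Nat.card N ≠ 0 := Nat.card_pos.ne'
      have h3 : N.index ≠ 0 := Subgroup.FiniteIndex.index_ne_zero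
      have h4 : Nat.card G ≠ 0 := by rw [← h1]; exact mul_ne_zero h2 h3
      exact hG (Nat.finite_of_card_ne_zero h4)
    exact acts_of_infinite_cyclic_normal M G N

end Vale.Agent.Lib.P172
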